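import Vale.Agent.P181.RH.Defs

set_option autoImplicit false

/-! P181, LINE RH, [PAR]: the parameters (pure arithmetic; helper183). -/

namespace Vale.Agent.P181.RH.H183

/-- the sum of the sizes of the classes -/
theorem sum_ff_le (m f₀ f₂ : ℕ) (hm : 3 ≤ m) : ∑ r : Fin m, ff m f₀ f₂ r ≤ 2 * f₀ + m * f₂ := by
  obtain ⟨k, rfl⟩ : ∃ k, m = k + 2 := ⟨m - 2, by omega⟩
  rw [Fin.sum_univ_succ, Fin.sum_univ_succ]
  have h0 : ff (k + 2) f₀ f₂ 0 ≤ f₀ := by
    unfold ff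
    split_ifs
    · exact Nat.sub_le _ _
    · rename_i h; exact absurd (by simp) h
  have h1 : ff (k + 2) f₀ f₂ (Fin.succ 0) ≤ f₀ := by
    unfold ff
    split_ifs
    · exact Nat.sub_le _ _
    · rename_i h; exact absurd (by simp) h
  have h2 : ∑ r : Fin k, ff (k + 2) f₀ f₂ r.succ.succ ≤ k * f₂ := by
    calc ∑ r : Fin k, ff (k + 2) f₀ f₂ r.succ.succ ≤ ∑ _r : Fin k, f₂ := by
          refine Finset.sum_le_sum fun r _ => ?_
          unfold ff
          rw [if_neg (by simp)]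
          exact Nat.sub_le _ _
      _ = k * f₂ := by simp
  have h3 : (k + 2) * f₂ = k * f₂ + 2 * f₂ := by ring
  omega

/-- the arithmetic, `Q = X ^ 8`, with all bounds in natural numbers -/
theorem core (a b X m : ℕ) (hX : 20 ≤ X) (ha : X ^ 100 ≤ a) (hab : a ≤ b) (hbX : b ≤ X * a)
    (hm3 : 3 ≤ m) (hmX : m ≤ X) :
    ∃ D1 D2 f₀ f₂ F₀ T s : ℕ, 1 ≤ s ∧ b ≤ (D1 + 1) * (D2 + 1) ∧
      (∀ u : ℕ, 1 ≤ u → u ≤ b → ∃ R2 R3 F₂ : ℕ, NumD u m D1 D2 R2 R3 a f₀ f₂ F₀ F₂ T s ∧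
        2 * X * (u * D1 + R2 + (u * D2 + R3)) ≤ a ^ 2 ∧ u * D2 + R3 ≤ X ^ 14 * a) ∧
      X * (2 * f₀ + m * f₂ + 2) ≤ 4 * a := by
  have hXp : 0 < X := by omega
  have pw : ∀ i j : ℕ, i ≤ j → X ^ i ≤ X ^ j := fun i j h => Nat.pow_le_pow_right hXp h
  have e4 : 160000 ≤ X ^ 4 := by
    calc 160000 = 20 ^ 4 := by norm_num
      _ ≤ X ^ 4 := Nat.pow_le_pow_left hX 4
  have ap : 0 < a := lt_of_lt_of_le (Nat.pow_pos hXp) ha
  -- powers of `X` below `a`
  have a26 : 160000 * X ^ 26 ≤ a := by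
    calc 160000 * X ^ 26 ≤ X ^ 4 * X ^ 26 := Nat.mul_le_mul_right _ e4
      _ = X ^ 30 := by rw [← pow_add]
      _ ≤ X ^ 100 := pw _ _ (by norm_num)
      _ ≤ a := ha
  have p8 : 1 ≤ X ^ 8 := Nat.one_le_pow _ _ hXp
  obtain ⟨D1, hD1⟩ : ∃ D1, D1 = b / X ^ 8 := ⟨_, rfl⟩
  have hlo : D1 * X ^ 8 ≤ b := by rw [hD1]; exact Nat.div_mul_le_self _ _
  have hhi : b < (D1 + 1) * X ^ 8 := by
    rw [hD1]
    exact Nat.lt_mul_of_div_lt (Nat.lt_succ_self _) p8
  obtain ⟨F, hF⟩ : ∃ F, F = b * (2 * D1 + 3 * X ^ 8 + 5) := ⟨_, rfl⟩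
  -- upper bound of `F`
  have hFu : F * X ^ 6 ≤ 3 * a ^ 2 := by
    have h1 : F * X ^ 8 ≤ (3 * a ^ 2) * X ^ 2 := by
      calc F * X ^ 8 = b * (2 * (D1 * X ^ 8) + (3 * X ^ 8 + 5) * X ^ 8) := by rw [hF]; ring
        _ ≤ (X * a) * (2 * (X * a) + (8 * X ^ 8) * X ^ 8) := by
            refine Nat.mul_le_mul hbX (Nat.add_le_add (Nat.mul_le_mul_left _ (hlo.trans hbX)) ?_)
            exact Nat.mul_le_mul_right _ (by omega)
        _ = (2 * a ^ 2) * X ^ 2 + (8 * X ^ 15 * a) * X ^ 2 := by ring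
        _ ≤ (2 * a ^ 2) * X ^ 2 + (a * a) * X ^ 2 := by
            have : 8 * X ^ 15 ≤ a := by
              have := pw 15 26 (by norm_num)
              omega
            exact Nat.add_le_add_left (Nat.mul_le_mul_right _ (Nat.mul_le_mul_right _ this)) _
        _ = (3 * a ^ 2) * X ^ 2 := by ring
    have h2 : F * X ^ 6 * X ^ 2 ≤ (3 * a ^ 2) * X ^ 2 := by
      calc F * X ^ 6 * X ^ 2 = F * X ^ 8 := by ring
        _ ≤ _ := h1
    exact Nat.le_of_mul_le_mul_right h2 (Nat.pow_pos hXp)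
  -- lower bound of `F`
  have hFl : 2 * a ^ 2 ≤ F * X ^ 8 := by
    calc 2 * a ^ 2 = a * (2 * a) := by ring
      _ ≤ b * (2 * b) := Nat.mul_le_mul hab (Nat.mul_le_mul_left _ hab)
      _ ≤ b * (2 * ((D1 + 1) * X ^ 8) + (3 * X ^ 8 + 3) * X ^ 8) := by
          refine Nat.mul_le_mul_left _ ?_
          omega
      _ = F * X ^ 8 := by rw [hF]; ring
  obtain ⟨f, hf⟩ : ∃ f, f = 4 * F / a + 3 := ⟨_, rfl⟩
  have hfu : f * a ≤ 4 * F + 3 * a := by
    rw [hf, Nat.add_mul]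
    exact Nat.add_le_add_right (Nat.div_mul_le_self _ _) _
  have hfl : 4 * F + 2 * a ≤ f * a := by
    have h1 : 4 * F < (4 * F / a + 1) * a := by
      exact Nat.lt_mul_of_div_lt (Nat.lt_succ_self _) ap
    have h2 : f * a = (4 * F / a + 1) * a + 2 * a := by rw [hf]; ring
    omega
  have hf6 : f * X ^ 6 ≤ 13 * a := by
    have h1 : f * X ^ 6 * a ≤ 13 * a * a := by
      calc f * X ^ 6 * a = (f * a) * X ^ 6 := by ring
        _ ≤ (4 * F + 3 * a) * X ^ 6 := Nat.mul_le_mul_right _ hfu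
        _ = 4 * (F * X ^ 6) + (3 * X ^ 6) * a := by ring
        _ ≤ 4 * (3 * a ^ 2) + a * a := by
            refine Nat.add_le_add (Nat.mul_le_mul_left _ hFu) (Nat.mul_le_mul_right _ ?_)
            have := pw 6 26 (by norm_num)
            omega
        _ = 13 * a * a := by ring
    exact Nat.le_of_mul_le_mul_right h1 ap
  -- `f` is large
  have hfbig : X ^ 12 + 2 ≤ f := by
    have h1 : (X ^ 12 + 2) * X ^ 8 * a ≤ f * X ^ 8 * a := by
      calc (X ^ 12 + 2) * X ^ 8 * a ≤ (8 * a) * a := by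
            refine Nat.mul_le_mul_right _ ?_
            have e1 : (X ^ 12 + 2) * X ^ 8 = X ^ 20 + 2 * X ^ 8 := by ring
            have e2 := pw 20 26 (by norm_num)
            have e3 := pw 8 26 (by norm_num)
            omega
        _ = 4 * (2 * a ^ 2) := by ring
        _ ≤ 4 * (F * X ^ 8) := Nat.mul_le_mul_left _ hFl
        _ = 4 * F * X ^ 8 := by ring
        _ ≤ (f * a) * X ^ 8 := Nat.mul_le_mul_right _ (by omega)
        _ = f * X ^ 8 * a := by ring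
    have h2 := Nat.le_of_mul_le_mul_right h1 ap
    exact Nat.le_of_mul_le_mul_right h2 p8
  -- `f² + X¹² a ≤ 2 F`
  have hsq : f ^ 2 + X ^ 12 * a ≤ 2 * F := by
    have h1 : (f ^ 2 + X ^ 12 * a) * X ^ 12 ≤ (2 * F) * X ^ 12 := by
      calc (f ^ 2 + X ^ 12 * a) * X ^ 12 = (f * X ^ 6) ^ 2 + X ^ 24 * a := by ring
        _ ≤ (13 * a) ^ 2 + a * a := by
            refine Nat.add_le_add (Nat.pow_le_pow_left hf6 2) (Nat.mul_le_mul_right _ ?_)
            have := pw 24 26 (by norm_num)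
            omega
        _ = 170 * a ^ 2 := by ring
        _ ≤ 2 * (2 * a ^ 2) * X ^ 4 := by
            have : 170 * a ^ 2 ≤ 4 * a ^ 2 * 160000 := by
              have : 4 * a ^ 2 * 160000 = 640000 * a ^ 2 := by ring
              omega
            calc 170 * a ^ 2 ≤ 4 * a ^ 2 * 160000 := this
              _ ≤ 4 * a ^ 2 * X ^ 4 := Nat.mul_le_mul_left _ e4
              _ = 2 * (2 * a ^ 2) * X ^ 4 := by ring
        _ ≤ 2 * (F * X ^ 8) * X ^ 4 := Nat.mul_le_mul_right _ (Nat.mul_le_mul_left _ hFl)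
        _ = (2 * F) * X ^ 12 := by ring
    exact Nat.le_of_mul_le_mul_right h1 (Nat.pow_pos hXp)
  have hf16 : 32 * f ≤ a := by
    have h1 : 32 * f * X ^ 6 ≤ a * X ^ 6 := by
      calc 32 * f * X ^ 6 = 32 * (f * X ^ 6) := by ring
        _ ≤ 32 * (13 * a) := Nat.mul_le_mul_left _ hf6
        _ ≤ a * 160000 := by omega
        _ ≤ a * X ^ 6 := Nat.mul_le_mul_left _ (e4.trans (pw 4 6 (by norm_num)))
    exact Nat.le_of_mul_le_mul_right h1 (Nat.pow_pos hXp)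
  have hX13 : 160000 * X ^ 14 ≤ a := by
    have := pw 14 26 (by norm_num)
    omega
  have hmf : m * X ^ 12 ≤ X ^ 13 := by
    calc m * X ^ 12 ≤ X * X ^ 12 := Nat.mul_le_mul_right _ hmX
      _ = X ^ 13 := by ring
  have h13 : X ^ 13 ≤ X ^ 14 := pw _ _ (by norm_num)
  refine ⟨D1, X ^ 8, f, X ^ 12, F, X ^ 8 + 2, D1 + 1, by omega, ?_, ?_, ?_⟩
  · have : (D1 + 1) * (X ^ 8 + 1) = (D1 + 1) * X ^ 8 + (D1 + 1) := by ring
    omega
  · intro u hu1 hub
    have huX : u ≤ X * a := hub.trans hbX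
    have hT : u * (D1 + X ^ 8 + (D1 + 1) + 2 * (X ^ 8 + 2)) ≤ F := by
      have e1 : D1 + X ^ 8 + (D1 + 1) + 2 * (X ^ 8 + 2) = 2 * D1 + 3 * X ^ 8 + 5 := by ring
      rw [hF, e1]
      exact Nat.mul_le_mul_right _ hub
    have hT2 : u * D1 + u * X ^ 8 + u * (D1 + 1 + (X ^ 8 + 2)) ≤ F := by
      refine le_trans ?_ hT
      have e1 : u * D1 + u * X ^ 8 + u * (D1 + 1 + (X ^ 8 + 2)) =
        u * (D1 + X ^ 8 + (D1 + 1) + (X ^ 8 + 2)) := by ring
      rw [e1]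
      exact Nat.mul_le_mul_left _ (by omega)
    -- `R2`
    have hR2 : X ^ 12 * a + u * X ^ 8 + u * D1 ≤ f * a + F := by omega
    obtain ⟨R2, hR2'⟩ := Nat.exists_eq_add_of_le hR2
    refine ⟨R2, X ^ 12 * a, u * X ^ 8, ⟨hm3, hu1, by omega, ?_, ?_, by ring, hT, le_rfl, ?_, ?_, ?_,
      ?_, ?_, ?_, ?_, by omega⟩, ?_, ?_⟩
    · calc u ≤ b := hub
        _ ≤ (D1 + 1) * X ^ 8 := hhi.le
        _ ≤ (D1 + 1) * (X ^ 8 + 1) := Nat.mul_le_mul_left _ (by omega)
    · omega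
    · -- `R2` is large
      have : f ^ 2 + X ^ 12 * a ≤ 2 * F := hsq
      omega
    · -- `R3` is large
      have g1 : u * (X ^ 8 + 2) ≤ (3 * X ^ 9) * a := by
        calc u * (X ^ 8 + 2) ≤ (X * a) * (3 * X ^ 8) := Nat.mul_le_mul huX (by omega)
          _ = (3 * X ^ 9) * a := by ring
      have g2 : f * X ^ 12 ≤ (13 * X ^ 6) * a := by
        calc f * X ^ 12 = (f * X ^ 6) * X ^ 6 := by ring
          _ ≤ (13 * a) * X ^ 6 := Nat.mul_le_mul_right _ hf6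
          _ = (13 * X ^ 6) * a := by ring
      have g3 : m * (X ^ 12) ^ 2 ≤ 1 * a := by
        calc m * (X ^ 12) ^ 2 ≤ X * (X ^ 12) ^ 2 := Nat.mul_le_mul_right _ hmX
          _ = X ^ 25 := by ring
          _ ≤ X ^ 26 := pw _ _ (by norm_num)
          _ ≤ 1 * a := by omega
      have g4 : m * (u * X ^ 8) ≤ X ^ 10 * a := by
        calc m * (u * X ^ 8) ≤ X * ((X * a) * X ^ 8) :=
              Nat.mul_le_mul hmX (Nat.mul_le_mul_right _ huX)
          _ = X ^ 10 * a := by ring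
      have g5 : a * m ^ 2 ≤ X ^ 2 * a := by
        calc a * m ^ 2 ≤ a * X ^ 2 := Nat.mul_le_mul_left _ (Nat.pow_le_pow_left hmX 2)
          _ = X ^ 2 * a := by ring
      have g6 : 3 * X ^ 9 + 13 * X ^ 6 + 1 + X ^ 10 + X ^ 2 ≤ X ^ 12 := by
        have i1 := pw 9 10 (by norm_num)
        have i2 := pw 6 10 (by norm_num)
        have i3 := pw 2 10 (by norm_num)
        have i4 := pw 0 10 (by norm_num)
        have i5 : X ^ 12 = X ^ 10 * X ^ 2 := by ring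
        have i6 : 400 ≤ X ^ 2 := by
          calc 400 = 20 ^ 2 := by norm_num
            _ ≤ X ^ 2 := Nat.pow_le_pow_left hX 2
        have i7 : X ^ 10 * 400 ≤ X ^ 10 * X ^ 2 := Nat.mul_le_mul_left _ i6
        rw [pow_zero] at i4
        omega
      calc u * (X ^ 8 + 2) + f * X ^ 12 + m * (X ^ 12) ^ 2 + m * (u * X ^ 8) + a * m ^ 2
          ≤ (3 * X ^ 9) * a + (13 * X ^ 6) * a + 1 * a + X ^ 10 * a + X ^ 2 * a := by omega
        _ = (3 * X ^ 9 + 13 * X ^ 6 + 1 + X ^ 10 + X ^ 2) * a := by ring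
        _ ≤ X ^ 12 * a := Nat.mul_le_mul_right _ g6
    · have g1 : 4 * (u * (X ^ 8 + 2)) ≤ (12 * X ^ 9) * a := by
        calc 4 * (u * (X ^ 8 + 2)) ≤ 4 * ((X * a) * (3 * X ^ 8)) :=
              Nat.mul_le_mul_left _ (Nat.mul_le_mul huX (by omega))
          _ = (12 * X ^ 9) * a := by ring
      refine g1.trans (Nat.mul_le_mul_right _ ?_)
      have i1 : X ^ 12 = X ^ 9 * X ^ 3 := by ring
      have i2 : 8000 ≤ X ^ 3 := by
        calc 8000 = 20 ^ 3 := by norm_num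
          _ ≤ X ^ 3 := Nat.pow_le_pow_left hX 3
      have i3 : X ^ 9 * 8000 ≤ X ^ 9 * X ^ 3 := Nat.mul_le_mul_left _ i2
      have i4 : X ^ 1 ≤ X ^ 9 := pw _ _ (by norm_num)
      rw [pow_one] at i4
      omega
    · omega
    · have h1 : u / (D1 + 1) < X ^ 8 := by
        rw [Nat.div_lt_iff_lt_mul (by omega), Nat.mul_comm]
        exact lt_of_le_of_lt hub hhi
      omega
    · have i1 : X ^ 12 = X ^ 8 * X ^ 4 := by ring
      have i3 : X ^ 8 * 160000 ≤ X ^ 8 * X ^ 4 := Nat.mul_le_mul_left _ e4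
      have i4 : X ^ 1 ≤ X ^ 8 := pw _ _ (by norm_num)
      rw [pow_one] at i4
      omega
    · have i1 : X ^ 12 = X ^ 8 * X ^ 4 := by ring
      have i3 : X ^ 8 * 160000 ≤ X ^ 8 * X ^ 4 := Nat.mul_le_mul_left _ e4
      have i4 : X ^ 1 ≤ X ^ 8 := pw _ _ (by norm_num)
      rw [pow_one] at i4
      omega
    · -- the number of columns
      have e1 : u * D1 + R2 + (u * X ^ 8 + X ^ 12 * a) = f * a + F := by omega
      rw [e1]
      have h1 : (2 * X * (f * a + F)) * X ^ 6 ≤ (a ^ 2) * X ^ 6 := by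
        calc (2 * X * (f * a + F)) * X ^ 6 = 2 * X * ((f * X ^ 6) * a + F * X ^ 6) := by ring
          _ ≤ 2 * X * ((13 * a) * a + 3 * a ^ 2) := by
              refine Nat.mul_le_mul_left _ (Nat.add_le_add (Nat.mul_le_mul_right _ hf6) hFu)
          _ = (32 * X) * a ^ 2 := by ring
          _ ≤ X ^ 6 * a ^ 2 := by
              refine Nat.mul_le_mul_right _ ?_
              have i1 : X ^ 6 = X * X ^ 5 := by ring
              have i2 : X * 32 ≤ X * X ^ 5 :=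
                Nat.mul_le_mul_left _ ((by omega : 32 ≤ X ^ 4).trans (pw 4 5 (by norm_num)))
              omega
          _ = (a ^ 2) * X ^ 6 := by ring
      exact Nat.le_of_mul_le_mul_right h1 (Nat.pow_pos hXp)
    · calc u * X ^ 8 + X ^ 12 * a ≤ (X * a) * X ^ 8 + X ^ 12 * a :=
            Nat.add_le_add_right (Nat.mul_le_mul_right _ huX) _
        _ = (X ^ 9 + X ^ 12) * a := by ring
        _ ≤ X ^ 14 * a := by
            refine Nat.mul_le_mul_right _ ?_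
            have i1 : X ^ 14 = X ^ 12 * X ^ 2 := by ring
            have i2 : X ^ 12 * 400 ≤ X ^ 12 * X ^ 2 := Nat.mul_le_mul_left _ (by
              calc 400 = 20 ^ 2 := by norm_num
                _ ≤ X ^ 2 := Nat.pow_le_pow_left hX 2)
            have i3 := pw 9 12 (by norm_num)
            omega
  · -- the sum of the sizes of the classes is small
    have h1 : X * (2 * f) ≤ 2 * a := by
      have h2 : X * (2 * f) * X ^ 5 ≤ 2 * a * X ^ 5 := by
        calc X * (2 * f) * X ^ 5 = 2 * (f * X ^ 6) := by ring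
          _ ≤ 2 * (13 * a) := Nat.mul_le_mul_left _ hf6
          _ ≤ 2 * a * 160000 := by omega
          _ ≤ 2 * a * X ^ 5 := Nat.mul_le_mul_left _ (e4.trans (pw 4 5 (by norm_num)))
      exact Nat.le_of_mul_le_mul_right h2 (Nat.pow_pos hXp)
    have h2 : X * (m * X ^ 12) ≤ X ^ 14 := by
      calc X * (m * X ^ 12) ≤ X * X ^ 13 := Nat.mul_le_mul_left _ hmf
        _ = X ^ 14 := by ring
    have h3 : X ^ 1 ≤ X ^ 14 := pw _ _ (by norm_num)
    rw [pow_one] at h3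
    have h4 : X * (2 * f + m * X ^ 12 + 2) = X * (2 * f) + X * (m * X ^ 12) + 2 * X := by ring
    omega

/-- **[PAR]** -/
theorem par : ParRH := by
  intro δ hδ hδ1
  obtain ⟨K, hK⟩ := exists_nat_ge (8 / δ)
  refine ⟨K + 20, fun a b X m hX ha hb hbX hm3 hmX => ?_⟩
  have hXp : 0 < X := by omega
  have ap : 0 < a := lt_of_lt_of_le (Nat.pow_pos hXp) ha
  have aR : (0 : ℝ) < a := by exact_mod_cast ap
  have hab : a ≤ b := by
    have : (a : ℝ) ≤ b := by nlinarith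
    exact_mod_cast this
  obtain ⟨D1, D2, f₀, f₂, F₀, T, s, hs, hD, hR, hsum⟩ :=
    core a b X m (by omega) ha hab hbX hm3 hmX
  have hS := sum_ff_le m f₀ f₂ hm3
  obtain ⟨S, hSe⟩ : ∃ S, S = ∑ r : Fin m, ff m f₀ f₂ r := ⟨_, rfl⟩
  rw [← hSe] at hS
  -- `S + 2 ≤ δ a / 2`
  have hXS : X * (S + 2) ≤ 4 * a := le_trans (Nat.mul_le_mul_left _ (by omega)) hsum
  have hXR : 8 / δ ≤ (X : ℝ) := by
    have : (K : ℝ) ≤ X := by exact_mod_cast (by omega : K ≤ X)
    linarith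
  have hSR : (S : ℝ) + 2 ≤ δ / 2 * a := by
    have h1 : (X : ℝ) * ((S : ℝ) + 2) ≤ 4 * a := by exact_mod_cast hXS
    have h2 : 8 / δ * ((S : ℝ) + 2) ≤ 4 * a :=
      le_trans (mul_le_mul_of_nonneg_right hXR (by positivity)) h1
    have h3 : δ / 8 * (8 / δ * ((S : ℝ) + 2)) ≤ δ / 8 * (4 * a) :=
      mul_le_mul_of_nonneg_left h2 (by positivity)
    have h4 : δ / 8 * (8 / δ * ((S : ℝ) + 2)) = (S : ℝ) + 2 := by field_simp
    rw [h4] at h3
    linarith
  have hSb : S + 1 ≤ b := by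
    have : (S : ℝ) + 1 ≤ b := by nlinarith
    exact_mod_cast this
  obtain ⟨u, hu⟩ : ∃ u, u + S = b := ⟨b - S, by omega⟩
  obtain ⟨R2, R3, F₂, hN, h1, h2⟩ := hR u (by omega) (by omega)
  refine ⟨u, D1, D2, R2, R3, f₀, f₂, F₀, F₂, T, s, hN, by rw [← hSe]; exact hu, ?_, h1, h2⟩
  have huR : (u : ℝ) + S = b := by exact_mod_cast hu
  linarith

end Vale.Agent.P181.RH.H183
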