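import Vale.Agent.P181.RH.UDefs
import Vale.Agent.P181.RH.H183.Par

set_option autoImplicit false

/-! P181, LINE RHU, [PARU]: the parameters with `X₀` explicit (helper183). -/

namespace Vale.Agent.P181.RH.H183

/-- **[PARU]** `ParRHU`: the same with `X₀` explicit. -/
theorem parU : ParRHU := by
  intro δ a b X m hδ hδ1 hX hXR0 ha hb hbX hm3 hmX
  have hXp : 0 < X := by omega
  have ap : 0 < a := lt_of_lt_of_le (Nat.pow_pos hXp) ha
  have aR : (0 : ℝ) < a := by exact_mod_cast ap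
  have hab : a ≤ b := by
    have : (a : ℝ) ≤ b := by nlinarith
    exact_mod_cast this
  obtain ⟨D1, D2, f₀, f₂, F₀, T, s, hs, hD, hR, hsum⟩ :=
    H183.core a b X m (by omega) ha hab hbX hm3 hmX
  have hS := H183.sum_ff_le m f₀ f₂ hm3
  obtain ⟨S, hSe⟩ : ∃ S, S = ∑ r : Fin m, ff m f₀ f₂ r := ⟨_, rfl⟩
  rw [← hSe] at hS
  -- `S + 2 ≤ δ a / 2`
  have hXS : X * (S + 2) ≤ 4 * a := le_trans (Nat.mul_le_mul_left _ (by omega)) hsum
  have hXR : 8 / δ ≤ (X : ℝ) :=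
    le_trans (div_le_div_of_nonneg_right (by norm_num) hδ.le) hXR0
  have hSR : (S : ℝ) + 2 ≤ δ / 2 * a := by
    have h1 : (X : ℝ) * ((S : ℝ) + 2) ≤ 4 * a := by exact_mod_cast hXS
    have h2 : 8 / δ * ((S : ℝ) + 2) ≤ 4 * a :=
      le_trans (mul_le_mul_of_nonneg_right hXR (by positivity)) h1
    have h3 : δ / 8 * (8 / δ * ((S : ℝ) + 2)) ≤ δ / 8 * (4 * a) :=
      mul_le_mul_of_nonneg_left h2 (by positivity)
    have h4 : δ / 8 * (8 / δ * ((S : ℝ) + 2)) = (S : ℝ) + 2 := by field_simp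
    rw [h4] at h3
    linarith
  have hSb : S + 1 ≤ b := by
    have : (S : ℝ) + 1 ≤ b := by nlinarith
    exact_mod_cast this
  obtain ⟨u, hu⟩ : ∃ u, u + S = b := ⟨b - S, by omega⟩
  obtain ⟨R2, R3, F₂, hN, h1, h2⟩ := hR u (by omega) (by omega)
  refine ⟨u, D1, D2, R2, R3, f₀, f₂, F₀, F₂, T, s, hN, by rw [← hSe]; exact hu, ?_, h1, h2⟩
  have huR : (u : ℝ) + S = b := by exact_mod_cast hu
  linarith

end Vale.Agent.P181.RH.H183
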